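import Vale.Agent.P207.SPH.H453.Bw

/-!
# P207, line RAY: the inequalities along one orbit, in the letters of `Sys` (helper76)

If `∫₀ᵀ tr U` differs from `h T` by a bounded amount on the orbit of `f`, then a mean of `tr K` at
most `c` for arbitrarily large `T` gives `h² ≤ m c`, and a mean of `qK` at least `d` for
arbitrarily large `T` gives `d ≤ h`.
-/

open Matrix MeasureTheory Set Filter Topology

noncomputable section

namespace Vale.Agent.P207.SPH.H76

open Vale.Agent.P207.SPH.H453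

variable {m : ℕ} {X : Type} [TopologicalSpace X]

theorem sq_trace_le (U : Mt m) (hU : Uᵀ = U) : U.trace ^ 2 ≤ m * (U * U).trace := by
  have h1 : U.trace ^ 2 ≤ m * ∑ i, (U i i) ^ 2 := by
    have h := sq_sum_le_card_mul_sum_sq (s := (Finset.univ : Finset (Fin m))) (f := fun i => U i i)
    rw [Finset.card_univ, Fintype.card_fin] at h
    exact h
  have h2 : ∑ i, (U i i) ^ 2 ≤ (U * U).trace := by
    refine Finset.sum_le_sum fun i _ => ?_
    rw [Matrix.diag_apply, Matrix.mul_apply]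
    have h3 : ∀ j, U i j * U j i = (U i j) ^ 2 := fun j => by
      have h4 : U j i = U i j := by
        conv_lhs => rw [← hU]
        rfl
      rw [h4, sq]
    simp only [h3]
    exact Finset.single_le_sum (f := fun j => (U i j) ^ 2) (fun j _ => sq_nonneg _)
      (Finset.mem_univ i)
  exact h1.trans (mul_le_mul_of_nonneg_left h2 (Nat.cast_nonneg m))

theorem hasDerivAt_trU (D : Sys m X) (f : X) (t : ℝ) :
    HasDerivAt (fun s => (D.U (D.Φ s f)).trace)
      ((D.K (D.Φ t f)).trace - (D.U (D.Φ t f) * D.U (D.Φ t f)).trace) t := by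
  have h1 : HasDerivAt (fun s => ∑ i, D.U (D.Φ s f) i i)
      (∑ i, (D.K (D.Φ t f) - D.U (D.Φ t f) * D.U (D.Φ t f)) i i) t :=
    HasDerivAt.fun_sum fun i _ => D.dU f t i i
  refine h1.congr_deriv ?_
  rw [← Matrix.trace_sub]
  rfl

/-- **the mean of `tr K` along one orbit** -/
theorem orbit_ric [CompactSpace X] (D : Sys m X) {h C : ℝ} (f : X)
    (horb : ∀ T, 0 ≤ T → |(∫ s in (0 : ℝ)..T, (D.U (D.Φ s f)).trace) - h * T| ≤ C) {c : ℝ}
    (hc : ∃ᶠ T : ℝ in atTop, ∫ s in (0 : ℝ)..T, (D.K (D.Φ s f)).trace ≤ c * T) :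
    h ^ 2 ≤ m * c := by
  by_contra hlt
  push Not at hlt
  obtain ⟨B, hB⟩ := exists_bound (F := fun f => (D.U f).trace) D.cU.matrix_trace
  have hB0 : 0 ≤ B := (norm_nonneg _).trans (hB f)
  have horbc : Continuous fun s => D.Φ s f := D.cont.comp (Continuous.prodMk_left f)
  have ht : Continuous fun s => (D.U (D.Φ s f)).trace := (D.cU.comp horbc).matrix_trace
  have hk : Continuous fun s => (D.K (D.Φ s f)).trace := (D.cK.comp horbc).matrix_trace
  have hu : Continuous fun s => (D.U (D.Φ s f) * D.U (D.Φ s f)).trace :=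
    ((D.cU.comp horbc).matrix_mul (D.cU.comp horbc)).matrix_trace
  have key : ∀ T, 0 ≤ T → h ^ 2 * T - 2 * |h| * C - m * (2 * B) ≤
      m * ∫ s in (0 : ℝ)..T, (D.K (D.Φ s f)).trace := by
    intro T hT
    have h1 := intervalIntegral.integral_eq_sub_of_hasDerivAt (a := 0) (b := T)
      (fun t _ => hasDerivAt_trU D f t) ((hk.sub hu).intervalIntegrable _ _)
    rw [intervalIntegral.integral_sub (hk.intervalIntegrable _ _) (hu.intervalIntegrable _ _)]
      at h1
    have h2 : ∫ s in (0 : ℝ)..T, (2 * h * (D.U (D.Φ s f)).trace - h ^ 2) ≤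
        ∫ s in (0 : ℝ)..T, m * (D.U (D.Φ s f) * D.U (D.Φ s f)).trace := by
      refine intervalIntegral.integral_mono_on hT
        (((continuous_const.mul ht).sub continuous_const).intervalIntegrable _ _)
        ((continuous_const.mul hu).intervalIntegrable _ _) fun s _ => ?_
      have h3 := sq_trace_le (D.U (D.Φ s f)) (D.sU _)
      nlinarith [sq_nonneg ((D.U (D.Φ s f)).trace - h)]
    have e1 : ∫ s in (0 : ℝ)..T, (2 * h * (D.U (D.Φ s f)).trace - h ^ 2) =
        2 * h * (∫ s in (0 : ℝ)..T, (D.U (D.Φ s f)).trace) - T * h ^ 2 := by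
      rw [intervalIntegral.integral_sub (f := fun s => 2 * h * (D.U (D.Φ s f)).trace)
        (g := fun _ => h ^ 2) ((continuous_const.mul ht).intervalIntegrable _ _)
        (continuous_const.intervalIntegrable _ _), intervalIntegral.integral_const_mul,
        intervalIntegral.integral_const, sub_zero, smul_eq_mul]
    rw [e1, intervalIntegral.integral_const_mul] at h2
    have h4 := abs_le.1 (horb T hT)
    have h5 := abs_le.1 (hB (D.Φ T f))
    have h6 := abs_le.1 (hB (D.Φ 0 f))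
    have h7 : 2 * h * (h * T) - 2 * |h| * C ≤
        2 * h * ∫ s in (0 : ℝ)..T, (D.U (D.Φ s f)).trace := by
      have h8 : |2 * h * ((∫ s in (0 : ℝ)..T, (D.U (D.Φ s f)).trace) - h * T)| ≤
          2 * |h| * C := by
        rw [abs_mul, abs_mul, abs_two]
        exact mul_le_mul_of_nonneg_left (horb T hT) (by positivity)
      have h9 := (abs_le.1 h8).1
      linarith
    have h10 : (m : ℝ) * ((D.U (D.Φ T f)).trace - (D.U (D.Φ 0 f)).trace) ≥ -(m * (2 * B)) := by
      have h11 : (-(2 * B)) ≤ (D.U (D.Φ T f)).trace - (D.U (D.Φ 0 f)).trace := by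
        linarith [h5.1, h6.2]
      have h12 := mul_le_mul_of_nonneg_left h11 (Nat.cast_nonneg (α := ℝ) m)
      linarith
    have h13 : (m : ℝ) * ∫ s in (0 : ℝ)..T, (D.K (D.Φ s f)).trace =
        m * (∫ s in (0 : ℝ)..T, (D.U (D.Φ s f) * D.U (D.Φ s f)).trace) +
          m * ((D.U (D.Φ T f)).trace - (D.U (D.Φ 0 f)).trace) := by
      rw [← h1]
      ring
    rw [h13]
    nlinarith
  have h0 : 0 < h ^ 2 - m * c := by linarith
  obtain ⟨T, hT1, hT2⟩ := (hc.and_eventually
    (eventually_gt_atTop (max 0 ((2 * |h| * C + m * (2 * B)) / (h ^ 2 - m * c))))).exists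
  have hT0 : 0 < T := (le_max_left _ _).trans_lt hT2
  have hT3 := (le_max_right _ _).trans_lt hT2
  rw [div_lt_iff₀ h0] at hT3
  have h1 := key T hT0.le
  have h2 := mul_le_mul_of_nonneg_left hT1 (Nat.cast_nonneg (α := ℝ) m)
  nlinarith

/-- **the mean of `qK` along one orbit** -/
theorem orbit_sqrt [CompactSpace X] (D : Sys m X) (hK : ∀ f x, 0 ≤ x ⬝ᵥ (D.K f *ᵥ x)) {h C : ℝ}
    (f : X)
    (horb : ∀ T, 0 ≤ T → |(∫ s in (0 : ℝ)..T, (D.U (D.Φ s f)).trace) - h * T| ≤ C) {d : ℝ}
    (hd : ∃ᶠ T : ℝ in atTop, d * T ≤ ∫ s in (0 : ℝ)..T, qK (D.K (D.Φ s f))) : d ≤ h := by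
  by_contra hlt
  push Not at hlt
  obtain ⟨C', hC'⟩ := bw D hK
  have h0 : 0 < d - h := by linarith
  obtain ⟨T, hT1, hT2⟩ := (hd.and_eventually
    (eventually_gt_atTop (max 0 ((C + C') / (d - h))))).exists
  have hT0 : 0 < T := (le_max_left _ _).trans_lt hT2
  have hT3 := (le_max_right _ _).trans_lt hT2
  rw [div_lt_iff₀ h0] at hT3
  have h1 := hC' f T hT0.le
  have h2 := (abs_le.1 (horb T hT0.le)).2
  nlinarith

end Vale.Agent.P207.SPH.H76
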